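import Crest.Agent.N111.Lib.All

/-! # Row 111: cones, projective bumps, projective POVMs, supports of words, incidence. -/

set_option autoImplicit false
set_option linter.unusedSectionVars false
set_option linter.unusedVariables false

namespace Crest.Agent.N111

open MeasureTheory Topology Filter Matrix
open scoped InnerProductSpace

variable {K : Type} [NormedAddCommGroup K] [InnerProductSpace ℂ K] [CompleteSpace K]

/-- normalised coordinate -/
noncomputable def co (i : Fin 3) (a : V) : ℂ := (nrm a i : ℝ)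

theorem Cv1.norm_nrm_le (a : V) : ‖nrm a‖ ≤ 1 := by
  rcases eq_or_ne a 0 with rfl | h
  · simp
  · exact (norm_nrm h).le
theorem norm_co_le (i : Fin 3) (a : V) : ‖co i a‖ ≤ 1 := by
  rw [co, Complex.norm_real]
  exact (norm_le_pi_norm _ i).trans (Cv1.norm_nrm_le a)
theorem bm_co (i : Fin 3) : BM (co i) :=
  ⟨Complex.measurable_ofReal.comp ((measurable_pi_apply i).comp measurable_nrm), 1, norm_co_le i⟩
theorem continuousAt_co (i : Fin 3) {a : V} (h : a ≠ 0) : ContinuousAt (co i) a :=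
  Complex.continuous_ofReal.continuousAt.comp ((continuous_apply i).continuousAt.comp
    (continuousOn_nrm.continuousAt (isOpen_compl_singleton.mem_nhds h)))

/-- the cone over a set -/
def cone (O : Set V) : Set V := {a | ∃ z : ℝ, z ≠ 0 ∧ z • a ∈ O}

theorem isOpen_cone {O : Set V} (h : IsOpen O) : IsOpen (cone O) :=
  isOpen_iff_mem_nhds.2 fun a ⟨z, hz, ha⟩ =>
    mem_of_superset ((h.preimage (continuous_const_smul z)).mem_nhds ha) fun _ hb => ⟨z, hz, hb⟩
theorem smul_mem_cone {O : Set V} {z : ℝ} (hz : z ≠ 0) {a : V} : z • a ∈ cone O ↔ a ∈ cone O :=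
  ⟨fun ⟨w, hw, h⟩ => ⟨w * z, mul_ne_zero hw hz, by rwa [mul_smul]⟩,
    fun ⟨w, hw, h⟩ => ⟨w * z⁻¹, mul_ne_zero hw (inv_ne_zero hz), by
      rwa [mul_smul, inv_smul_smul₀ hz]⟩⟩
theorem hom0_ic_cone (O : Set V) : Hom0 (ic (cone O)) := fun z hz a => by
  by_cases h : a ∈ cone O
  · rw [ic_of_mem h, ic_of_mem ((smul_mem_cone hz).2 h)]
  · rw [ic_of_notMem h, ic_of_notMem (mt (smul_mem_cone hz).1 h)]
theorem subset_cone (O : Set V) : O ⊆ cone O := fun a h => ⟨1, one_ne_zero, by rwa [one_smul]⟩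
theorem mem_cone_of_sg_nrm {O : Set V} (h0 : (0 : V) ∉ O) {a : V} (h : sg (nrm a) ∈ O) :
    a ∈ cone O := by
  have ha : ‖a‖⁻¹ ≠ 0 := by
    refine inv_ne_zero (norm_ne_zero_iff.2 ?_)
    rintro rfl
    rcases sg_eq (nrm 0) with e | e <;> rw [e] at h <;> simp [h0] at h
  rcases sg_eq (nrm a) with e | e <;> rw [e] at h
  · exact ⟨_, ha, h⟩
  · exact ⟨_, neg_ne_zero.2 ha, by rw [neg_smul]; exact h⟩
/-- projective bump functions -/
theorem exists_pbump {a : V} (ha : a ≠ 0) {O : Set V} (hO : O ∈ 𝓝 a) :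
    ∃ (u : V → ℝ) (O' : Set V), IsOpen O' ∧ a ∈ O' ∧ O' ⊆ O ∧ (0 : V) ∉ O' ∧
      BM (fun b => (u b : ℂ)) ∧ Hom0 (fun b => (u b : ℂ)) ∧ ContinuousOn u {0}ᶜ ∧ u 0 = 0 ∧
      (∀ b, 0 ≤ u b ∧ u b ≤ 1) ∧ (∀ b ∈ cone O', u b = 1) ∧ ∀ b, u b ≠ 0 → b ∈ cone O := by
  have hO' := inter_mem hO (isOpen_compl_singleton.mem_nhds ha)
  obtain ⟨ε, hε, hb⟩ := Metric.mem_nhds_iff.1 hO'
  let φ : (Fin 3 → Fin 3 → ℝ) → ℝ := fun M => max 0 (min 1 (2 - 2 * dist (Matrix.of M *ᵥ a) a / ε))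
  have hφ : Continuous φ := by
    have : Continuous fun M : Fin 3 → Fin 3 → ℝ => Matrix.of M *ᵥ a :=
      continuous_pi fun i => by simp only [mulVec, dotProduct, of_apply]; fun_prop
    fun_prop
  have hq : ∀ b : V, Matrix.of (Pj.pm b) *ᵥ a = (b ⬝ᵥ a / (b ⬝ᵥ b)) • b := fun b => by
    funext i
    change Pj.pm b i ⬝ᵥ a = _
    rw [Pj.pm_row, smul_dotProduct, Pi.smul_apply, smul_eq_mul, smul_eq_mul]
    ring
  have h01 : ∀ M, 0 ≤ φ M ∧ φ M ≤ 1 := fun M =>
    ⟨le_max_left _ _, max_le zero_le_one (min_le_left _ _)⟩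
  have hne : ∀ b, φ (Pj.pm b) ≠ 0 → (b ⬝ᵥ a / (b ⬝ᵥ b)) • b ∈ O ∩ {0}ᶜ := fun b h => by
    refine hb (Metric.mem_ball.2 (lt_of_not_ge fun h1 => h (max_eq_left (min_le_of_right_le ?_))))
    rw [hq, sub_nonpos, le_div_iff₀ hε]
    linarith
  have hc : ContinuousOn (fun b => φ (Pj.pm b)) {0}ᶜ := hφ.comp_continuousOn Pj.continuousOn_pm
  have h1 : {b | φ (Pj.pm b) = 1} ∈ 𝓝 a := by
    have h2 : ContinuousAt (fun b : V => dist ((b ⬝ᵥ a / (b ⬝ᵥ b)) • b) a) a := by
      refine (continuous_id.dist continuous_const).continuousAt.comp (ContinuousAt.smul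
        (ContinuousAt.div (g := fun b => b ⬝ᵥ b) ?_ ?_ (Pj.dot_ne ha)) continuousAt_id) <;>
        simp only [dotProduct, Fin.sum_univ_three] <;> fun_prop
    filter_upwards [h2.eventually (gt_mem_nhds (a := ε / 2) (by
      simpa [div_self (Pj.dot_ne ha)] using hε))] with b h3
    refine (max_eq_right (le_min zero_le_one ?_)).trans (min_eq_left ?_) <;>
      rw [hq, le_sub_comm, div_le_iff₀ hε] <;> linarith
  refine ⟨fun b => φ (Pj.pm b), interior ({b | φ (Pj.pm b) = 1} ∩ (O ∩ {0}ᶜ)), isOpen_interior,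
    mem_interior_iff_mem_nhds.2 (inter_mem h1 hO'), fun b h => (interior_subset h).2.1,
    fun h => (interior_subset h).2.2 rfl, BM.ofReal (hφ.measurable.comp Pj.measurable_pm) (C := 1)
      fun b => abs_le.2 ⟨by linarith [(h01 (Pj.pm b)).1], (h01 _).2⟩,
    fun z hz b => by simp only [Pj.pm_smul hz], hc, ?_, fun b => h01 _, ?_, fun b h => ?_⟩
  · by_contra h
    exact (hne 0 h).2 (smul_zero _)
  · rintro b ⟨z, hz, h⟩
    have := (interior_subset h).1
    rwa [Set.mem_ofPred_eq, Pj.pm_smul hz] at this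
  · refine ⟨_, fun h0 => (hne b h).2 ?_, (hne b h).1⟩
    rw [h0, zero_smul]; rfl
/-- uniformly non-incident neighbourhoods -/
theorem exists_ni {a b : V} (h : a ⬝ᵥ b ≠ 0) : ∃ θ > (0 : ℝ), ∃ O ∈ 𝓝 a, ∃ O' ∈ 𝓝 b,
    ∀ a' ∈ cone O, ∀ b' ∈ cone O', θ * (‖a'‖ * ‖b'‖) ≤ |a' ⬝ᵥ b'| := by
  have ha : 0 < ‖a‖ := norm_pos_iff.2 (by rintro rfl; simp at h)
  have hb : 0 < ‖b‖ := norm_pos_iff.2 (by rintro rfl; simp at h)
  have h0 := abs_pos.2 h
  obtain ⟨θ, hθ, h1⟩ : ∃ θ > (0 : ℝ), θ * (‖a‖ * ‖b‖) < |a ⬝ᵥ b| :=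
    ⟨|a ⬝ᵥ b| / (2 * (‖a‖ * ‖b‖)), by positivity, by field_simp; norm_num⟩
  have h2 : ∀ᶠ p : V × V in 𝓝 (a, b), θ * (‖p.1‖ * ‖p.2‖) < |p.1 ⬝ᵥ p.2| :=
    (isOpen_lt (by fun_prop) (by simp only [dotProduct]; fun_prop)).mem_nhds h1
  obtain ⟨O, hO, O', hO', h3⟩ := mem_nhds_prod_iff.1 h2
  refine ⟨θ, hθ, O, hO, O', hO', fun a' ⟨z, hz, e⟩ b' ⟨w, hw, e'⟩ => ?_⟩
  have h4 : θ * (‖z • a'‖ * ‖w • b'‖) ≤ |(z • a') ⬝ᵥ (w • b')| :=
    le_of_lt (h3 (Set.mk_mem_prod e e'))
  simp only [norm_smul, smul_dotProduct, dotProduct_smul, smul_eq_mul, abs_mul,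
    Real.norm_eq_abs] at h4
  refine le_of_mul_le_mul_left ?_ (mul_pos (abs_pos.2 hz) (abs_pos.2 hw))
  linarith

/-- POVMs on the projective plane -/
structure POVM.Proj (P : POVM V K) : Prop where
  conc : ∀ f, BM f → P.E f = P.E fun a => f (sg (nrm a))
  zero : P.E (ic {0}) = 0

/-- POVMs on `(V ∖ 0)/±` -/
structure POVM.Sym (P : POVM V K) : Prop where
  conc : ∀ f, BM f → P.E f = P.E fun a => f (sg a)
  zero : P.E (ic {0}) = 0

theorem BM.sg_nrm {f : V → ℂ} (hf : BM f) : BM fun a => f (sg (nrm a)) :=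
  hf.comp (measurable_sg.comp measurable_nrm)
theorem POVM.Proj.sym {P : POVM V K} (h : P.Proj) : P.Sym :=
  ⟨fun f hf => by rw [h.conc f hf, h.conc _ (hf.comp measurable_sg)]; simp only [sg_sg], h.zero⟩
theorem Cv1.closed_sphere : IsClosed {a : V | ‖a‖ = 1} := isClosed_eq continuous_norm continuous_const
theorem POVM.Proj.sphere {P : POVM V K} (h : P.Proj) : P.E (ic {a | ‖a‖ = 1}) = 1 := by
  have hm := BM.ic Cv1.closed_sphere.measurableSet
  rw [h.conc _ hm, ← P.E_one]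
  refine P.E_congr_of_null (measurableSet_singleton 0) h.zero hm.sg_nrm BM.one fun a ha =>
    ic_of_mem ?_
  rcases sg_eq (nrm a) with e | e <;> simp [e, norm_nrm ha]
theorem Cv1.bm_cut {f : V → ℂ} (hf : BM f) : BM fun a => ic {0}ᶜ a * f a :=
  (BM.ic (measurableSet_singleton 0).compl).mul hf
theorem POVM.Sym.cut {P : POVM V K} (h : P.Sym) {f : V → ℂ} (hf : BM f) :
    P.E f = P.E fun a => ic {0}ᶜ a * f a :=
  P.E_congr_of_null (measurableSet_singleton 0) h.zero hf (Cv1.bm_cut hf) fun a ha => by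
    rw [ic_of_mem (O := {0}ᶜ) ha, one_mul]
theorem POVM.Proj.conj {P : POVM V K} (h : P.Proj) (u : K →L[ℂ] K) (hu : u * star u = 1) :
    (P.conj u hu).Proj :=
  ⟨fun f hf => by rw [POVM.conj_E, POVM.conj_E, h.conc f hf],
    by rw [POVM.conj_E, h.zero, mul_zero, zero_mul]⟩
theorem POVM.Sym.conj {P : POVM V K} (h : P.Sym) (u : K →L[ℂ] K) (hu : u * star u = 1) :
    (P.conj u hu).Sym :=
  ⟨fun f hf => by rw [POVM.conj_E, POVM.conj_E, h.conc f hf],
    by rw [POVM.conj_E, h.zero, mul_zero, zero_mul]⟩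
/-- it is enough to test projective functions -/
theorem POVM.Proj.commute {P : POVM V K} (h : P.Proj) {S : K →L[ℂ] K}
    (e : ∀ f, BM f → Hom0 f → ContinuousOn f {0}ᶜ → Commute S (P.E f)) {f : V → ℂ} (hf : BM f) :
    Commute S (P.E f) := by
  have := (P.isPoly1.mul S 1).ext_hom0 (P.isPoly1.mul 1 S)
    (fun f hf h0 hc => by rw [mul_one, one_mul]; exact e f hf h0 hc) _ hf.sg_nrm (hom0_sg_nrm f)
  rwa [mul_one, one_mul, ← h.conc f hf] at this
theorem POVM.Sym.commute {P : POVM V K} (h : P.Sym) {S : K →L[ℂ] K}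
    (e : ∀ f, BM f → Ev f → Commute S (P.E f)) {f : V → ℂ} (hf : BM f) : Commute S (P.E f) := by
  rw [h.conc f hf]
  exact e _ (hf.comp measurable_sg) fun a => by simp only [sg_neg]

/-! ### supports of words -/

section words
variable {Y : Type} [MeasurableSpace Y]

theorem word_succ {n : ℕ} (P : Fin (n + 1) → POVM Y K) (f : Fin (n + 1) → Y → ℂ) :
    word P f = (P 0).E (f 0) * word (fun i => P i.succ) fun i => f i.succ := by
  simp only [word, List.ofFn_succ, List.prod_cons]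
theorem word_succ' {n : ℕ} (P : Fin (n + 1) → POVM Y K) (f : Fin (n + 1) → Y → ℂ) :
    word P f = word (fun i => P i.castSucc) (fun i => f i.castSucc) *
      (P (Fin.last n)).E (f (Fin.last n)) := by
  simp only [word, List.ofFn_succ', List.concat_eq_append, List.prod_append, List.prod_cons,
    List.prod_nil, mul_one]
theorem star_word {n : ℕ} (P : Fin n → POVM Y K) {f : Fin n → Y → ℂ} (hf : ∀ i, BM (f i)) :
    star (word P f) = word (fun i => P i.rev) fun i y => (starRingEnd ℂ) (f i.rev y) := by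
  induction n with
  | zero => simp [word]
  | succ n ih =>
    rw [word_succ, word_succ', star_mul, ih _ fun i => hf _, POVM.E_star _ (hf 0)]
    simp only [Fin.rev_castSucc, Fin.rev_last]
theorem word_conj {n : ℕ} {P Q : Fin n → POVM Y K} {u : K →L[ℂ] K} (hu : u ∈ unitary (K →L[ℂ] K))
    (h : ∀ i f, BM f → u * (P i).E f * star u = (Q i).E f) {f : Fin n → Y → ℂ}
    (hf : ∀ i, BM (f i)) : u * word P f * star u = word Q f := by
  induction n with
  | zero => simpa [word] using hu.2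
  | succ n ih =>
    rw [word_succ, word_succ, ← ih (fun i => h _) fun i => hf _, ← h 0 _ (hf 0)]
    simp only [mul_assoc, ← mul_assoc (star u) u, hu.1, one_mul]

end words

theorem word_conc {n : ℕ} {P : Fin n → POVM V K} (hP : ∀ i, (P i).Sym) (f : Fin n → V → ℂ)
    (hf : ∀ k, BM (f k)) : word P f = word P fun k y => ic {0}ᶜ y * f k y := by
  simp only [word, ← fun i => (hP i).cut (hf i)]
theorem word_sg {n : ℕ} {P : Fin n → POVM V K} (hP : ∀ i, (P i).Sym) (f : Fin n → V → ℂ)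
    (hf : ∀ k, BM (f k)) : word P f = word P fun k y => f k (sg y) := by
  simp only [word, ← fun i => (hP i).conc _ (hf i)]
theorem word_one {Y : Type} [MeasurableSpace Y] {n : ℕ} (P : Fin n → POVM Y K) :
    word P (fun _ _ => 1) = 1 := by
  simp [word, POVM.E_one]
theorem Cv1.supp_eq {κ Y : Type} [MeasurableSpace Y] [TopologicalSpace Y]
    {W W' : (κ → Y → ℂ) → K →L[ℂ] K} (h : ∀ f, (∀ k, BM (f k)) → (W f = 0 ↔ W' f = 0)) :
    supp W = supp W' :=
  Set.ext fun _ => forall₂_congr fun _ _ => not_congr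
    (forall₂_congr fun f hf => imp_congr_right fun _ => h f hf)
/-- the support of a word is nonempty away from zero -/
theorem exists_mem_supp_word [Nontrivial K] {n : ℕ} {P : Fin n → POVM V K} (hP : ∀ i, (P i).Sym) :
    ∃ z ∈ supp (word P), ∀ i, z i ≠ 0 := by
  by_contra! h
  have := (isPoly_word P).eq_zero_of_conc (Z := fun _ => {0}ᶜ) (fun _ => isOpen_compl_singleton)
    (word_conc hP) (fun z hz hs => (h z hs).elim fun i hi => hz i hi) _ fun _ => BM.one
  exact one_ne_zero ((word_one P).symm.trans this)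
theorem supp_word_rev {Y : Type} [MeasurableSpace Y] [TopologicalSpace Y] {n : ℕ}
    (P : Fin n → POVM Y K) {z : Fin n → Y} (hz : z ∈ supp (word P)) :
    (fun i => z i.rev) ∈ supp (word fun i => P i.rev) := fun O hO hN =>
  hz (fun i => O i.rev) (fun i => by simpa using hO i.rev) fun f hf h0 => by
    rw [← star_eq_zero, star_word P hf]
    exact hN _ (fun i => (hf _).conj) fun i y hy => by rw [h0 i.rev y (by simpa using hy), map_zero]
theorem supp_word_conj {Y : Type} [MeasurableSpace Y] [TopologicalSpace Y] {n : ℕ}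
    {P Q : Fin n → POVM Y K} {u : K →L[ℂ] K} (hu : u ∈ unitary (K →L[ℂ] K))
    (h : ∀ i f, BM f → u * (P i).E f * star u = (Q i).E f) : supp (word P) = supp (word Q) := by
  refine Cv1.supp_eq fun f hf => ?_
  rw [← word_conj hu h hf]
  refine ⟨fun e => by rw [e, mul_zero, zero_mul], fun e => ?_⟩
  have := congrArg (fun T => star u * T * u) e
  simpa only [mul_assoc, ← mul_assoc (star u) u, hu.1, one_mul, mul_one, mul_zero, zero_mul]
    using this
theorem Cv1.extend_ind {κ κ' : Type} {e : κ' → κ} (he : Function.Injective e)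
    {p : κ → Prop} (h1 : ∀ i, p (e i)) (h2 : ∀ k, (¬∃ i, e i = k) → p k) (k : κ) : p k := by
  by_cases h : ∃ i, e i = k
  · obtain ⟨i, rfl⟩ := h
    exact h1 i
  · exact h2 k h
/-- **sub-words**: if `W f = S * W' (f ∘ e) * T` with `S, T` depending on the other slots -/
theorem mem_supp_of_factor {κ κ' Y : Type} [MeasurableSpace Y] [TopologicalSpace Y]
    {W : (κ → Y → ℂ) → K →L[ℂ] K} {W' : (κ' → Y → ℂ) → K →L[ℂ] K} {e : κ' → κ}
    (he : Function.Injective e)
    (h : ∀ f, (∀ k, BM (f k)) → ∃ S T, W f = S * W' (fun i => f (e i)) * T) {z : κ → Y}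
    (hz : z ∈ supp W) : (fun i => z (e i)) ∈ supp W' := fun O hO hN => by
  refine hz (Function.extend e O fun _ => Set.univ) (Cv1.extend_ind he
    (fun i => ?_) fun k hk => ?_) fun f hf h0 => ?_
  · rw [he.extend_apply]; exact hO i
  · rw [Function.extend_apply' _ _ _ hk]; exact univ_mem
  · obtain ⟨S, T, e1⟩ := h f hf
    rw [e1, hN _ (fun i => hf _) fun i y hy => h0 _ y (by rwa [he.extend_apply]), mul_zero, zero_mul]
/-- **lifting**: a support point of `W` with some slots filled by `1` lifts to a support point -/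
theorem exists_lift_supp {κ κ' : Type} [Fintype κ] [DecidableEq κ]
    {W : (κ → V → ℂ) → K →L[ℂ] K} (hW : IsPoly W)
    (hc : ∀ f, (∀ k, BM (f k)) → W f = W fun k y => ic {0}ᶜ y * f k y)
    {W' : (κ' → V → ℂ) → K →L[ℂ] K} {e : κ' → κ} (he : Function.Injective e)
    (h : ∀ f', (∀ k, BM (f' k)) → W' f' = W (Function.extend e f' fun _ _ => 1)) {z' : κ' → V}
    (hz : z' ∈ supp W') (h0 : ∀ i, z' i ≠ 0) {O : κ' → Set V} (hO : ∀ i, O i ∈ 𝓝 (z' i)) :
    ∃ z ∈ supp W, (∀ k, z k ≠ 0) ∧ ∀ i, z (e i) ∈ O i := by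
  by_contra! hn
  refine hz (fun i => interior (O i)) (fun i => interior_mem_nhds.2 (hO i)) fun f hf hf0 => ?_
  have hb : ∀ k, BM (Function.extend e f (fun _ _ => 1) k) := Cv1.extend_ind he
    (fun i => by rw [he.extend_apply]; exact hf i)
    fun k hk => by rw [Function.extend_apply' _ _ _ hk]; exact BM.one
  rw [h f hf, hc _ hb]
  refine hW.nullOn_of_disjoint
    (O := fun k => {0}ᶜ ∩ Function.extend e (fun i => interior (O i)) (fun _ => Set.univ) k)
    (fun k => isSigmaCompact_of_isOpen (isOpen_compl_singleton.inter ?_)) (fun z hz hs => ?_) _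
    (fun k => Cv1.bm_cut (hb k)) (Cv1.extend_ind he (fun i y hy => ?_) fun k hk y hy => ?_)
  · refine Cv1.extend_ind he (p := fun k => IsOpen
      (Function.extend e (fun i => interior (O i)) (fun _ => Set.univ) k)) (fun i => ?_)
      (fun k hk => ?_) k
    · rw [he.extend_apply]; exact isOpen_interior
    · rw [Function.extend_apply' _ _ _ hk]; exact isOpen_univ
  · obtain ⟨i, hi⟩ := hn z hs fun k => (hz k).1
    have := (hz (e i)).2
    rw [he.extend_apply] at this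
    exact hi (interior_subset this)
  · simp only [he.extend_apply] at hy ⊢
    rcases not_and_or.1 hy with h1 | h1
    · rw [ic_of_notMem h1, zero_mul]
    · rw [hf0 i y h1, mul_zero]
  · simp only [Function.extend_apply' _ _ _ hk, Set.inter_univ] at hy
    rw [ic_of_notMem hy, zero_mul]

/-- incidence -/
def Inc (P G : POVM V K) : Prop := ∀ z ∈ supp (word ![P, G]), z 0 ⬝ᵥ z 1 = 0

theorem Inc.symm {P G : POVM V K} (h : Inc P G) : Inc G P := fun z hz => by
  have h1 := supp_word_rev _ hz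
  rw [show (fun i : Fin 2 => ![G, P] i.rev) = ![P, G] by funext i; fin_cases i <;> rfl] at h1
  exact (dotProduct_comm _ _).trans (h _ h1)
theorem Inc.conj {P G P' G' : POVM V K} (h : Inc P G) {u : K →L[ℂ] K}
    (hu : u ∈ unitary (K →L[ℂ] K)) (hP : ∀ f, BM f → u * P.E f * star u = P'.E f)
    (hG : ∀ f, BM f → u * G.E f * star u = G'.E f) : Inc P' G' := fun z hz =>
  h z (by rwa [supp_word_conj (Q := ![P', G']) hu (Fin.forall_fin_two.2 ⟨hP, hG⟩)])
/-- criterion -/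
theorem inc_of_ni {P G : POVM V K} (hP : P.Proj) (hG : G.Proj)
    (h : ∀ f g, BM f → Hom0 f → ContinuousOn f {0}ᶜ → BM g → Hom0 g → ContinuousOn g {0}ᶜ →
      ∀ θ > (0 : ℝ), (∀ a b, f a ≠ 0 → g b ≠ 0 → θ * (‖a‖ * ‖b‖) ≤ |a ⬝ᵥ b|) →
      P.E f * G.E g = 0) : Inc P G := fun z hz => by
  by_contra hne
  obtain ⟨θ, hθ, O, hO, O', hO', hni⟩ := exists_ni hne
  obtain ⟨u, A, a1, a2, -, a4, a5, a6, a7, -, a9, a10, a11⟩ :=
    exists_pbump (a := z 0) (by intro e; simp [e] at hne) hO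
  obtain ⟨w, B, b1, b2, -, b4, b5, b6, b7, -, b9, b10, b11⟩ :=
    exists_pbump (a := z 1) (by intro e; simp [e] at hne) hO'
  have h1 := h _ _ a5 a6 (Complex.continuous_ofReal.comp_continuousOn a7) b5 b6
    (Complex.continuous_ofReal.comp_continuousOn b7) θ hθ fun a b ha hb =>
      hni a (a11 a (by simpa using ha)) b (b11 b (by simpa using hb))
  refine hz ![A, B] (Fin.forall_fin_two.2 ⟨a1.mem_nhds a2, b1.mem_nhds b2⟩) fun f hf h0 => ?_
  rw [word_two, hP.conc _ (hf 0), hG.conc _ (hf 1)]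
  have h2 := G.mul_E_eq_zero b5 (fun b => (b9 b).1) h1 (hf 1).sg_nrm fun b hb =>
    h0 1 _ fun hm => one_ne_zero ((b10 b (mem_cone_of_sg_nrm b4 hm)).symm.trans hb)
  ext η
  exact P.E_apply_eq_zero a5 (fun a => (a9 a).1) (congrArg (· η) h2 :) (hf 0).sg_nrm fun a ha =>
    h0 0 _ fun hm => one_ne_zero ((a10 a (mem_cone_of_sg_nrm a4 hm)).symm.trans ha)
theorem Inc.mul_eq_zero {P G : POVM V K} (h : Inc P G) (hP : P.Proj) (hG : G.Proj) {f g : V → ℂ}
    (hf : BM f) (hg : BM g) (hf0 : Hom0 f) (hg0 : Hom0 g) {θ : ℝ} (hθ : 0 < θ)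
    (hni : ∀ a b, f a ≠ 0 → g b ≠ 0 → θ * (‖a‖ * ‖b‖) ≤ |a ⬝ᵥ b|) : P.E f * G.E g = 0 := by
  have hS := Cv1.closed_sphere.measurableSet
  have hf' := (BM.ic hS).mul hf
  have hg' := (BM.ic hS).mul hg
  rw [P.E_congr_of_conc hS hP.sphere hf hf' fun y hy => by rw [ic_of_mem hy, one_mul],
    G.E_congr_of_conc hS hG.sphere hg hg' fun y hy => by rw [ic_of_mem hy, one_mul]]
  have key : ∀ {k : V → ℂ} (y : V), y ∉ closure {a | ‖a‖ = 1 ∧ k a ≠ 0} →
      ic {a | ‖a‖ = 1} y * k y = 0 := fun {k} y hy => by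
    rcases not_and_or.1 (fun h : ‖y‖ = 1 ∧ k y ≠ 0 => hy (subset_closure h)) with h1 | h1
    · rw [ic_of_notMem (O := {a : V | ‖a‖ = 1}) h1, zero_mul]
    · rw [not_not.1 h1, mul_zero]
  have := (isPoly_word ![P, G]).nullOn_of_disjoint
    (O := ![closure {a | ‖a‖ = 1 ∧ f a ≠ 0}, closure {a | ‖a‖ = 1 ∧ g a ≠ 0}])
    (Fin.forall_fin_two.2 ⟨isSigmaCompact_of_isClosed isClosed_closure,
      isSigmaCompact_of_isClosed isClosed_closure⟩) (fun z hz hs => ?_) _ (bm_vec2 hf' hg')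
    (Fin.forall_fin_two.2 ⟨key, key⟩)
  · rwa [word_two] at this
  · have h1 : (z 0, z 1) ∈ closure ({a | ‖a‖ = 1 ∧ f a ≠ 0} ×ˢ {a | ‖a‖ = 1 ∧ g a ≠ 0}) := by
      rw [closure_prod_eq]; exact ⟨hz 0, hz 1⟩
    have h2 := closure_minimal (t := {p : V × V | θ ≤ |p.1 ⬝ᵥ p.2|}) (fun p hp => by
      simpa [hp.1.1, hp.2.1] using hni _ _ hp.1.2 hp.2.2)
      (isClosed_le continuous_const (by simp only [dotProduct]; fun_prop)) h1
    simp only [Set.mem_ofPred_eq, h z hs, abs_zero] at h2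
    exact absurd h2 hθ.not_ge
theorem Ind.IsInc.symm {Φ Ψ : V → POVM V K} (h : Ind.IsInc Φ Ψ) : Ind.IsInc Ψ Φ :=
  ⟨fun x y hx hy e => Inc.symm (h.inc y x hy hx ((dotProduct_comm _ _).trans e)),
    fun x y hx hy e f g hf hg => (h.comm y x hy hx ((dotProduct_comm _ _).trans e) g f hg hf).symm⟩

end Crest.Agent.N111
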