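import Crest.Agent.N111.D.Cov

-- ▼ part N111/D/Syn
section

/-! # Row 111: Herz synthesis for incident POVMs. -/

set_option autoImplicit false
set_option linter.unusedSectionVars false
set_option linter.unusedVariables false

namespace Crest.Agent.N111

open MeasureTheory Topology Filter Matrix
open scoped InnerProductSpace

variable {K : Type} [NormedAddCommGroup K] [InnerProductSpace ℂ K] [CompleteSpace K]

namespace Syn

theorem abs_le_one {a : V} (h : ‖a‖ = 1) (i : Fin 3) : |a i| ≤ 1 :=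
  h ▸ (Real.norm_eq_abs (a i) ▸ norm_le_pi_norm a i)

theorem abs_sub_lt_of_floor {δ x y : ℝ} (hδ : 0 < δ) (h : ⌊x / δ⌋ = ⌊y / δ⌋) : |x - y| < δ := by
  have := Int.abs_sub_lt_one_of_floor_eq_floor h
  rwa [← sub_div, abs_div, abs_of_pos hδ, div_lt_one hδ] at this

theorem floor_close {δ x y : ℝ} (hδ : 0 < δ) (h : |x - y| ≤ 40 * δ) :
    ⌊x / δ⌋ ∈ Finset.Icc (⌊y / δ⌋ - 40) (⌊y / δ⌋ + 40) := by
  obtain ⟨h1, h2⟩ := abs_le.1 h
  have e1 : y / δ - (40 : ℤ) ≤ x / δ := by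
    rw [le_div_iff₀ hδ, sub_mul, div_mul_cancel₀ _ hδ.ne']; push_cast; linarith
  have e2 : x / δ ≤ y / δ + (40 : ℤ) := by
    rw [div_le_iff₀ hδ, add_mul, div_mul_cancel₀ _ hδ.ne']; push_cast; linarith
  refine Finset.mem_Icc.2 ⟨?_, ?_⟩
  · simpa only [Int.floor_sub_intCast] using Int.floor_mono e1
  · simpa only [Int.floor_add_intCast] using Int.floor_mono e2

theorem floor_mem {δ x : ℝ} (hδ : 0 < δ) (h : |x| ≤ 1) :
    ⌊x / δ⌋ ∈ Finset.Icc ⌊-1 / δ⌋ ⌊1 / δ⌋ :=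
  Finset.mem_Icc.2 ⟨Int.floor_mono (div_le_div_of_nonneg_right (abs_le.1 h).1 hδ.le),
    Int.floor_mono (div_le_div_of_nonneg_right (abs_le.1 h).2 hδ.le)⟩

theorem dot_perm (σ : Equiv.Perm (Fin 3)) (a b : V) :
    a ⬝ᵥ b = a (σ 0) * b (σ 0) + a (σ 1) * b (σ 1) + a (σ 2) * b (σ 2) := by
  rw [dotProduct, ← Equiv.sum_comp σ, Fin.sum_univ_three]

theorem exists_perm {δ : ℝ} {a b : V} (ha : ‖a‖ = 1) (hb : ‖b‖ = 1) (h : |a ⬝ᵥ b| ≤ 4 * δ) :
    ∃ σ : Equiv.Perm (Fin 3), |a (σ 0)| = 1 ∧ (1 / 4 ≤ |b (σ 2)| ∨ 1 / 8 ≤ δ) := by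
  obtain ⟨i, hi⟩ := exists_abs_eq_norm a
  obtain ⟨k, hk⟩ := exists_abs_eq_norm b
  rw [ha] at hi
  rw [hb] at hk
  have key : ∀ i m : Fin 3, i ≠ m → ∃ σ : Equiv.Perm (Fin 3), σ 0 = i ∧ σ 2 = m := by decide
  by_cases h1 : ∃ m, i ≠ m ∧ 1 / 4 ≤ |b m|
  · obtain ⟨m, him, hm⟩ := h1
    obtain ⟨σ, rfl, rfl⟩ := key i m him
    exact ⟨σ, hi, Or.inl hm⟩
  · push Not at h1
    obtain ⟨m, him⟩ := exists_ne i
    obtain ⟨σ, rfl, -⟩ := key i m him.symm
    refine ⟨σ, hi, Or.inr ?_⟩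
    have hik : σ 0 = k := by
      by_contra hne
      linarith [h1 k hne]
    subst hik
    have b1 := h1 (σ 1) (σ.injective.ne (by decide))
    have b2 := h1 (σ 2) (σ.injective.ne (by decide))
    have e0 : |a (σ 0) * b (σ 0)| = 1 := by rw [abs_mul, hi, hk, mul_one]
    have e1 : |a (σ 1) * b (σ 1)| ≤ 1 / 4 := by
      rw [abs_mul]; nlinarith [abs_le_one ha (σ 1), abs_nonneg (a (σ 1)), abs_nonneg (b (σ 1))]
    have e2 : |a (σ 2) * b (σ 2)| ≤ 1 / 4 := by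
      rw [abs_mul]; nlinarith [abs_le_one ha (σ 2), abs_nonneg (a (σ 2)), abs_nonneg (b (σ 2))]
    rw [dot_perm σ] at h
    obtain ⟨h2, h3⟩ := abs_le.1 h
    obtain ⟨e3, e4⟩ := abs_le.1 e1
    obtain ⟨e5, e6⟩ := abs_le.1 e2
    rcases abs_eq (zero_le_one' ℝ) |>.1 e0 with e | e <;> linarith

theorem third_close {δ : ℝ} (hδ : 0 < δ) {a a' b : V} (ha : ‖a‖ = 1) (ha' : ‖a'‖ = 1)
    (hb : ‖b‖ = 1) (h : |a ⬝ᵥ b| ≤ 4 * δ) (h' : |a' ⬝ᵥ b| ≤ 4 * δ) {σ : Equiv.Perm (Fin 3)}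
    (h0 : |a (σ 0) - a' (σ 0)| < δ) (h1 : |a (σ 1) - a' (σ 1)| < δ)
    (h2 : 1 / 4 ≤ |b (σ 2)| ∨ 1 / 8 ≤ δ) : |a (σ 2) - a' (σ 2)| ≤ 40 * δ := by
  rcases h2 with h2 | h2
  · have e0 : |(a (σ 0) - a' (σ 0)) * b (σ 0)| ≤ δ := by
      rw [abs_mul]; nlinarith [abs_le_one hb (σ 0), abs_nonneg (b (σ 0))]
    have e1 : |(a (σ 1) - a' (σ 1)) * b (σ 1)| ≤ δ := by
      rw [abs_mul]; nlinarith [abs_le_one hb (σ 1), abs_nonneg (b (σ 1))]
    have e2 : |(a (σ 2) - a' (σ 2)) * b (σ 2)| ≤ 10 * δ := by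
      rw [dot_perm σ] at h h'
      obtain ⟨h2, h3⟩ := abs_le.1 h
      obtain ⟨h4, h5⟩ := abs_le.1 h'
      obtain ⟨e3, e4⟩ := abs_le.1 e0
      obtain ⟨e5, e6⟩ := abs_le.1 e1
      exact abs_le.2 ⟨by linarith, by linarith⟩
    rw [abs_mul] at e2
    nlinarith [abs_nonneg (a (σ 2) - a' (σ 2))]
  · obtain ⟨e1, e2⟩ := abs_le.1 (abs_le_one ha (σ 2))
    obtain ⟨e3, e4⟩ := abs_le.1 (abs_le_one ha' (σ 2))
    exact abs_le.2 ⟨by linarith, by linarith⟩

theorem card_Icc_le {δ : ℝ} (hδ : 0 < δ) (hδ1 : δ ≤ 1) :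
    ((Finset.Icc ⌊-1 / δ⌋ ⌊1 / δ⌋).card : ℝ) ≤ 4 / δ := by
  have h1 : 1 ≤ 1 / δ := by rw [le_div_iff₀ hδ]; linarith
  have h2 := Int.floor_le (1 / δ)
  have h3 := Int.lt_floor_add_one (-1 / δ)
  have h4 : ⌊-1 / δ⌋ ≤ ⌊1 / δ⌋ + 1 :=
    (Int.floor_mono (div_le_div_of_nonneg_right (by norm_num : (-1 : ℝ) ≤ 1) hδ.le)).trans
      (by omega)
  have h5 : (((Finset.Icc ⌊-1 / δ⌋ ⌊1 / δ⌋).card : ℤ) : ℝ) = (⌊1 / δ⌋ + 1 - ⌊-1 / δ⌋ : ℤ) := by
    rw [Int.card_Icc_of_le _ _ h4]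
  push_cast at h5
  have h6 : -1 / δ = -(1 / δ) := by ring
  have h7 : 4 / δ = 4 * (1 / δ) := by ring
  linarith

end Syn

open Syn in
/-- counting the cells of the unit sphere near a plane -/
theorem card_cells_le : ∃ C : ℝ, ∀ δ : ℝ, 0 < δ → δ ≤ 1 → ∀ b : V, ‖b‖ = 1 →
    ∀ s : Finset (Fin 3 → ℤ), (∀ c ∈ s, ∃ a : V, ‖a‖ = 1 ∧ (∀ i, ⌊a i / δ⌋ = c i) ∧
      |a ⬝ᵥ b| ≤ 4 * δ) → (s.card : ℝ) ≤ C / δ := by
  classical
  refine ⟨81 * 6 * 2 * 4, fun δ hδ hδ1 b hb s hs => ?_⟩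
  choose! a ha hc hd using hs
  choose! σ hσ hσ' using fun c (h : c ∈ s) => exists_perm (ha c h) hb (hd c h)
  have h1 := Finset.card_le_mul_card_image_of_maps_to (s := s)
    (f := fun c => (σ c, c (σ c 0), c (σ c 1)))
    (t := Finset.univ ×ˢ ({⌊1 / δ⌋, ⌊-1 / δ⌋} ×ˢ Finset.Icc ⌊-1 / δ⌋ ⌊1 / δ⌋))
    (fun c h => by
      refine Finset.mem_product.2 ⟨Finset.mem_univ _, Finset.mem_product.2 ⟨?_, ?_⟩⟩
      · simp only [← hc c h]
        rcases (abs_eq (zero_le_one' ℝ)).1 (hσ c h) with e | e <;> simp [e]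
      · simp only [← hc c h]
        exact floor_mem hδ (abs_le_one (ha c h) _)) 81
    (fun q _ => by
      rcases (s.filter fun c => (σ c, c (σ c 0), c (σ c 1)) = q).eq_empty_or_nonempty with
        e | ⟨c₀, h₁⟩
      · rw [e]; simp
      obtain ⟨h₀, hq₀⟩ := Finset.mem_filter.1 h₁
      subst hq₀
      have hq : ∀ c ∈ s.filter fun c => (σ c, c (σ c 0), c (σ c 1))
          = (σ c₀, c₀ (σ c₀ 0), c₀ (σ c₀ 1)),
          c ∈ s ∧ c (σ c₀ 0) = c₀ (σ c₀ 0) ∧ c (σ c₀ 1) = c₀ (σ c₀ 1) := fun c h => by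
        obtain ⟨h, e⟩ := Finset.mem_filter.1 h
        simp only [Prod.mk.injEq] at e
        obtain ⟨e0, e1, e2⟩ := e
        rw [e0] at e1 e2
        exact ⟨h, e1, e2⟩
      refine (Finset.card_le_card_of_injOn (t := Finset.Icc (c₀ (σ c₀ 2) - 40) (c₀ (σ c₀ 2) + 40))
        (fun c => c (σ c₀ 2)) (fun c h => ?_) fun c h c' h' e => ?_).trans ?_
      · obtain ⟨h, e0, e1⟩ := hq c h
        rw [← hc c h, ← hc c₀ h₀] at e0 e1
        have := floor_close hδ (third_close hδ (ha c h) (ha c₀ h₀) hb (hd c h) (hd c₀ h₀)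
          (abs_sub_lt_of_floor hδ e0) (abs_sub_lt_of_floor hδ e1) (hσ' c₀ h₀))
        rwa [hc c h, hc c₀ h₀] at this
      · obtain ⟨h, e0, e1⟩ := hq c h
        obtain ⟨h', e0', e1'⟩ := hq c' h'
        funext i
        obtain ⟨t, rfl⟩ := (σ c₀).surjective i
        fin_cases t
        exacts [e0.trans e0'.symm, e1.trans e1'.symm, e]
      · rw [Int.card_Icc]; omega)
  have h2 : ((({⌊1 / δ⌋, ⌊-1 / δ⌋} : Finset ℤ).card : ℕ) : ℝ) ≤ 2 := by
    exact_mod_cast Finset.card_le_two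
  have h3 := card_Icc_le hδ hδ1
  rw [Finset.card_product, Finset.card_product, Finset.card_univ, Fintype.card_perm,
    Fintype.card_fin] at h1
  have h4 : (s.card : ℝ) ≤ 81 * (6 * ((({⌊1 / δ⌋, ⌊-1 / δ⌋} : Finset ℤ).card : ℝ)
      * (Finset.Icc ⌊-1 / δ⌋ ⌊1 / δ⌋).card)) := by exact_mod_cast h1
  have h5 := mul_le_mul h2 h3 (Nat.cast_nonneg _) (by norm_num)
  calc _ ≤ 81 * (6 * (2 * (4 / δ))) := h4.trans (by linarith)
    _ = _ := by ring

namespace Syn

/-- the Herz estimate -/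
theorem herz_le {κ : Type} (P G : POVM V K) (s : Finset κ) {e w : κ → V → ℂ}
    (he : ∀ k, BM (e k)) (hw : ∀ k, BM (w k)) {B B' ε : ℝ} (hB : 0 ≤ B) (hε : 0 ≤ ε)
    (h : ∀ y, ∑ k ∈ s, ‖e k y‖ ^ 2 ≤ B) (h' : ∀ y, ∑ k ∈ s, ‖w k y‖ ^ 2 ≤ B')
    (hle : B * B' ≤ ε ^ 2) : ‖∑ k ∈ s, P.E (e k) * G.E (w k)‖ ≤ ε := by
  refine ContinuousLinearMap.opNorm_le_bound _ hε fun η => ?_
  refine (pow_le_pow_iff_left₀ (norm_nonneg _) (by positivity) two_ne_zero).1 ?_
  rw [_root_.sum_apply, mul_pow]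
  refine ((P.norm_sum_E_sq_le s (fun k _ => he k) hB h fun k => G.E (w k) η).trans
    (mul_le_mul_of_nonneg_left (G.sum_norm_E_sq_le s (fun k _ => hw k) h' η) hB)).trans ?_
  rw [← mul_assoc]
  exact mul_le_mul_of_nonneg_right hle (sq_nonneg _)

theorem sum_le_card {κ : Type} (s : Finset κ) {φ : κ → ℂ} (q : κ → Prop) [DecidablePred q]
    {B n : ℝ} (h0 : ∀ k, ¬ q k → φ k = 0) (h : ∀ k, q k → ‖φ k‖ ≤ B)
    (hn : ((s.filter q).card : ℝ) ≤ n) : ∑ k ∈ s, ‖φ k‖ ^ 2 ≤ n * B ^ 2 := by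
  rw [← Finset.sum_filter_of_ne (p := q) fun k _ hk => by
    by_contra hq
    exact hk (by rw [h0 k hq]; simp)]
  refine (Finset.sum_le_card_nsmul _ _ (B ^ 2) fun k hk =>
    pow_le_pow_left₀ (norm_nonneg _) (h k (Finset.mem_filter.1 hk).2) 2).trans ?_
  rw [nsmul_eq_mul]
  exact mul_le_mul_of_nonneg_right hn (sq_nonneg _)

/-- uniformly non-incident boxes are null -/
theorem null {P G : POVM V K} (h : Inc P G) {p : V} {δ : ℝ} {u w : V → ℂ} (hu : BM u) (hw : BM w)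
    (hu0 : ∀ a, u a ≠ 0 → ‖a - p‖ ≤ δ) (hw0 : ∀ b, w b ≠ 0 → ‖b‖ = 1 ∧ 4 * δ < |p ⬝ᵥ b|) :
    P.E u * G.E w = 0 := by
  have hO : IsOpen {b : V | ‖b‖ < 4 / 3 ∧ 4 * δ < |p ⬝ᵥ b|} :=
    (isOpen_lt continuous_norm continuous_const).inter
      (isOpen_lt continuous_const (continuous_const.dotProduct continuous_id).abs)
  have h1 := (isPoly_word ![P, G]).nullOn_of_disjoint
    (O := ![Metric.closedBall p δ, {b : V | ‖b‖ < 4 / 3 ∧ 4 * δ < |p ⬝ᵥ b|}])
    (Fin.forall_fin_two.2 ⟨isSigmaCompact_of_isClosed Metric.isClosed_closedBall,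
      isSigmaCompact_of_isOpen hO⟩)
    (fun z hz hs => by
      have h0 : ‖z 0 - p‖ ≤ δ := mem_closedBall_iff_norm.1 (hz 0)
      obtain ⟨h1, h2⟩ : ‖z 1‖ < 4 / 3 ∧ 4 * δ < |p ⬝ᵥ z 1| := hz 1
      have h3 := abs_dot_le (z 0 - p) (z 1)
      rw [sub_dotProduct, h z hs, zero_sub, abs_neg] at h3
      nlinarith [norm_nonneg (z 0 - p), norm_nonneg (z 1)])
    ![u, w] (Fin.forall_fin_two.2 ⟨hu, hw⟩) (Fin.forall_fin_two.2
      ⟨fun a ha => by_contra fun hne => ha (mem_closedBall_iff_norm.2 (hu0 a hne)),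
        fun b hb => by_contra fun hne => hb ⟨by rw [(hw0 b hne).1]; norm_num, (hw0 b hne).2⟩⟩)
  simpa [word] using h1

open Classical in
/-- the cell decomposition of the unit sphere -/
theorem exists_cells : ∃ C : ℝ, 0 ≤ C ∧ ∀ δ : ℝ, 0 < δ → δ ≤ 1 →
    ∃ (s : Finset (Fin 3 → ℤ)) (A : (Fin 3 → ℤ) → Set V) (p : (Fin 3 → ℤ) → V),
      (∀ c, MeasurableSet (A c)) ∧ (∀ a, ‖a‖ = 1 → ∑ c ∈ s, ic (A c) a = 1) ∧
      (∀ c, ∀ a ∈ A c, ‖a‖ = 1 ∧ ‖a - p c‖ ≤ δ) ∧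
      (∀ a, ((s.filter fun c => a ∈ A c).card : ℝ) ≤ 1) ∧
      ∀ b, ((s.filter fun c => ‖b‖ = 1 ∧ |p c ⬝ᵥ b| ≤ 4 * δ).card : ℝ) ≤ C / δ := by
  obtain ⟨C, hC⟩ := card_cells_le
  refine ⟨max C 0, le_max_right _ _, fun δ hδ hδ1 => ?_⟩
  let A : (Fin 3 → ℤ) → Set V := fun c => {a | ‖a‖ = 1 ∧ ∀ i, ⌊a i / δ⌋ = c i}
  have hp : ∀ c, ∃ p, (A c).Nonempty → p ∈ A c := fun c => by
    by_cases h : (A c).Nonempty
    exacts [⟨h.some, fun _ => h.some_mem⟩, ⟨0, fun h' => (h h').elim⟩]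
  choose p hp using hp
  refine ⟨(Fintype.piFinset fun _ => Finset.Icc ⌊-1 / δ⌋ ⌊1 / δ⌋).filter fun c => (A c).Nonempty,
    A, p, fun c => ?_, fun a ha => ?_, fun c a ha => ⟨ha.1, ?_⟩, fun a => ?_, fun b => ?_⟩
  · refine (measurableSet_eq_fun measurable_norm measurable_const).inter ?_
    have hm : ∀ i, Measurable fun a : V => ⌊a i / δ⌋ := fun i =>
      Measurable.floor (f := fun a : V => a i / δ) (by fun_prop)
    exact Measurable.setOf (Measurable.forall fun i => (hm i).eq measurable_const)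
  · rw [Finset.sum_eq_single_of_mem fun i => ⌊a i / δ⌋]
    · exact ic_of_mem ⟨ha, fun _ => rfl⟩
    · exact Finset.mem_filter.2 ⟨Fintype.mem_piFinset.2 fun i => floor_mem hδ (abs_le_one ha i),
        a, ha, fun _ => rfl⟩
    · exact fun c _ hc => ic_of_notMem fun h => hc (funext h.2).symm
  · exact (pi_norm_le_iff_of_nonneg hδ.le).2 fun i =>
      (abs_sub_lt_of_floor hδ ((ha.2 i).trans ((hp c ⟨a, ha⟩).2 i).symm)).le
  · refine Nat.cast_le_one.2 (Finset.card_le_one.2 fun c h c' h' => ?_)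
    simp only [Finset.mem_filter] at h h'
    exact (funext h.2.2).symm.trans (funext h'.2.2)
  · by_cases hb : ‖b‖ = 1
    · refine (hC δ hδ hδ1 b hb _ fun c h => ?_).trans
        (div_le_div_of_nonneg_right (le_max_left _ _) hδ.le)
      obtain ⟨h1, h2⟩ := Finset.mem_filter.1 h
      have h3 := hp c (Finset.mem_filter.1 h1).2
      exact ⟨p c, h3.1, h3.2, h2.2⟩
    · simp only [hb, false_and, Finset.filter_false, Finset.card_empty, Nat.cast_zero]
      positivity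

theorem co_of_norm {a : V} (h : ‖a‖ = 1) (i : Fin 3) : co i a = (a i : ℝ) := by
  simp [co, nrm, h]

end Syn

open Syn in
/-- **SYN** -/
theorem Inc.syn {P G : POVM V K} (h : Inc P G) (hP : P.Proj) (hG : G.Proj) {f g : V → ℂ}
    (hf : BM f) (hg : BM g) :
    ∑ i, P.E (fun a => f a * co i a) * G.E (fun b => g b * co i b) = 0 := by
  classical
  obtain ⟨C, hC0, hC⟩ := exists_cells
  obtain ⟨F, hF0, hF⟩ := hf.exists_nonneg
  obtain ⟨D, hD0, hD⟩ := hg.exists_nonneg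
  refine norm_le_zero_iff.1 (le_of_forall_pos_le_add fun ε hε => ?_)
  obtain ⟨δ, hδ, hδ1, hδε⟩ : ∃ δ : ℝ, 0 < δ ∧ δ ≤ 1 ∧ 16 * F ^ 2 * D ^ 2 * C * δ ≤ (ε / 4) ^ 2 := by
    obtain ⟨δ, hδ, h1⟩ := exists_eps (x := 16 * F ^ 2 * D ^ 2 * C) (c := (ε / 4) ^ 2)
      (by positivity) (by positivity)
    exact ⟨min δ 1, lt_min hδ one_pos, min_le_right _ _,
      (mul_le_mul_of_nonneg_left (min_le_left _ _) (by positivity)).trans h1⟩
  obtain ⟨s, A, p, hA, hA1, hAp, hcA, hcN⟩ := hC δ hδ hδ1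
  have hS : MeasurableSet {a : V | ‖a‖ = 1} := measurableSet_eq_fun measurable_norm measurable_const
  have hm : ∀ c, Measurable fun b : V => |p c ⬝ᵥ b| := fun c =>
    (continuous_const.dotProduct continuous_id).abs.measurable
  let N : (Fin 3 → ℤ) → Set V := fun c => {b | ‖b‖ = 1 ∧ |p c ⬝ᵥ b| ≤ 4 * δ}
  let N' : (Fin 3 → ℤ) → Set V := fun c => {b | ‖b‖ = 1 ∧ 4 * δ < |p c ⬝ᵥ b|}
  have hN : ∀ c, BM (ic (N c)) := fun c => BM.ic (hS.inter (measurableSet_le (hm c) measurable_const))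
  have hN' : ∀ c, BM (ic (N' c)) := fun c =>
    BM.ic (hS.inter (measurableSet_lt measurable_const (hm c)))
  let e : Fin 3 → (Fin 3 → ℤ) → V → ℂ := fun i c a => ic (A c) a * (f a * (co i a - (p c i : ℝ)))
  let e₀ : (Fin 3 → ℤ) → V → ℂ := fun c a => ic (A c) a * f a
  let w : Fin 3 → (Fin 3 → ℤ) → V → ℂ := fun i c b => ic (N c) b * (g b * co i b)
  let w₀ : (Fin 3 → ℤ) → V → ℂ := fun c b => ∑ i, (p c i : ℝ) * w i c b
  have he : ∀ i c, BM (e i c) := fun i c =>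
    (BM.ic (hA c)).mul (hf.mul ((bm_co i).sub (BM.const _)))
  have he₀ : ∀ c, BM (e₀ c) := fun c => (BM.ic (hA c)).mul hf
  have hw : ∀ i c, BM (w i c) := fun i c => (hN c).mul (hg.mul (bm_co i))
  have hw₀ : ∀ c, BM (w₀ c) := fun c => BM.sum _ fun i _ => (hw i c).const_mul _
  have E0 : ∀ c, G.E (w₀ c) = ∑ i, ((p c i : ℝ) : ℂ) • G.E (w i c) := fun c => by
    rw [G.E_sum _ fun i _ => (hw i c).const_mul _]
    exact Finset.sum_congr rfl fun i _ => G.E_smul _ (hw i c)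
  have E1 : ∀ i, P.E (fun a => f a * co i a) * G.E (fun b => g b * co i b)
      = ∑ c ∈ s, (P.E (e i c) + ((p c i : ℝ) : ℂ) • P.E (e₀ c)) * G.E (w i c) := fun i => by
    have b := fun c => (BM.ic (hA c)).mul (hf.mul (bm_co i))
    rw [P.E_congr_of_conc hS hP.sphere (hf.mul (bm_co i)) (BM.sum s fun c _ => b c)
      (fun a ha => by rw [← Finset.sum_mul, hA1 a ha, one_mul]), P.E_sum s fun c _ => b c,
      Finset.sum_mul]
    refine Finset.sum_congr rfl fun c _ => ?_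
    have b' := (hN' c).mul (hg.mul (bm_co i))
    rw [G.E_congr_of_conc hS hG.sphere (hg.mul (bm_co i)) ((hw i c).add b') (fun y hy => by
      by_cases hy' : |p c ⬝ᵥ y| ≤ 4 * δ
      · simp only [w]
        rw [ic_of_mem (show y ∈ N c from ⟨hy, hy'⟩),
          ic_of_notMem (show y ∉ N' c from fun h => h.2.not_ge hy'), one_mul, zero_mul, add_zero]
      · simp only [w]
        rw [ic_of_notMem (show y ∉ N c from fun h => hy' h.2),
          ic_of_mem (show y ∈ N' c from ⟨hy, not_le.1 hy'⟩), one_mul, zero_mul, zero_add]),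
      G.E_add (hw i c) b', mul_add, null h (p := p c) (δ := δ) (b c) b'
        (fun a ha => (hAp c a (by_contra fun h => ha (by simp [h]))).2)
        (fun y hy => show y ∈ N' c from by_contra fun h => hy (by simp [h])), add_zero,
      ← P.E_smul _ (he₀ c), ← P.E_add (he i c) ((he₀ c).const_mul _)]
    congr 2
    funext a
    simp only [e, e₀]
    ring
  have E2 : ∑ i, P.E (fun a => f a * co i a) * G.E (fun b => g b * co i b)
      = ∑ i, ∑ c ∈ s, P.E (e i c) * G.E (w i c) + ∑ c ∈ s, P.E (e₀ c) * G.E (w₀ c) := by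
    simp only [E0, E1, add_mul, Finset.sum_add_distrib, Finset.mul_sum, smul_mul_assoc,
      mul_smul_comm]
    rw [Finset.sum_comm (s := s)]
  have hCδ : C / δ * δ ^ 2 = C * δ := by field_simp
  have B1 : ∀ i, ‖∑ c ∈ s, P.E (e i c) * G.E (w i c)‖ ≤ ε / 4 := fun i =>
    herz_le P G s (he i) (hw i) (B := 1 * (F * δ) ^ 2) (B' := C / δ * D ^ 2) (by positivity)
      (by positivity)
      (fun a => sum_le_card s (fun c => a ∈ A c) (fun c hc => by simp [e, hc])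
        (fun c hc => by
          simp only [e]
          rw [ic_of_mem hc, one_mul, norm_mul, co_of_norm (hAp c a hc).1, ← Complex.ofReal_sub,
            Complex.norm_real]
          exact mul_le_mul (hF a) ((norm_le_pi_norm (a - p c) i).trans (hAp c a hc).2)
            (norm_nonneg _) hF0) (hcA a))
      (fun b => sum_le_card s (fun c => ‖b‖ = 1 ∧ |p c ⬝ᵥ b| ≤ 4 * δ)
        (fun c hc => by simp only [w]; rw [ic_of_notMem (show b ∉ N c from hc), zero_mul])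
        (fun c hc => by
          simp only [w]
          rw [ic_of_mem (show b ∈ N c from hc), one_mul, norm_mul]
          exact (mul_le_of_le_one_right (norm_nonneg _) (norm_co_le i b)).trans (hD b)) (hcN b))
      (by
        have : 0 ≤ F ^ 2 * D ^ 2 * C * δ := by positivity
        calc _ = F ^ 2 * D ^ 2 * (C / δ * δ ^ 2) := by ring
          _ ≤ _ := by rw [hCδ]; linarith)
  have B0 : ‖∑ c ∈ s, P.E (e₀ c) * G.E (w₀ c)‖ ≤ ε / 4 :=
    herz_le P G s he₀ hw₀ (B := 1 * F ^ 2) (B' := C / δ * (D * (4 * δ)) ^ 2) (by positivity)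
      (by positivity)
      (fun a => sum_le_card s (fun c => a ∈ A c) (fun c hc => by simp [e₀, hc])
        (fun c hc => by simp only [e₀]; rw [ic_of_mem hc, one_mul]; exact hF a) (hcA a))
      (fun b => sum_le_card s (fun c => ‖b‖ = 1 ∧ |p c ⬝ᵥ b| ≤ 4 * δ)
        (fun c hc => by simp only [w₀, w]; simp [ic_of_notMem (show b ∉ N c from hc)])
        (fun c hc => by
          have : w₀ c b = g b * (p c ⬝ᵥ b : ℝ) := by
            simp only [w₀, w, ic_of_mem (show b ∈ N c from hc), co_of_norm hc.1, dotProduct,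
              Fin.sum_univ_three]
            push_cast
            ring
          rw [this, norm_mul, Complex.norm_real]
          exact mul_le_mul (hD b) hc.2 (norm_nonneg _) hD0) (hcN b))
      (by
        calc _ = 16 * F ^ 2 * D ^ 2 * (C / δ * δ ^ 2) := by ring
          _ ≤ _ := by rw [hCδ]; linarith)
  rw [E2, Fin.sum_univ_three]
  refine (norm_add_le _ _).trans ((add_le_add_left (norm_add₃_le) _).trans ?_)
  linarith [B1 0, B1 1, B1 2]

end Crest.Agent.N111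
end

-- ▼ part N111/D/Mid

/-! # Row 111: the middle slot is determined by the outer slots (fill the proofs IN PLACE). -/

set_option autoImplicit false
set_option linter.unusedSectionVars false
set_option linter.unusedVariables false

namespace Crest.Agent.N111

open MeasureTheory Topology Filter Matrix
open scoped InnerProductSpace

variable {K : Type} [NormedAddCommGroup K] [InnerProductSpace ℂ K] [CompleteSpace K]

namespace Mid

/-- `|n|² bᵢ bₖ ≡ nᵢ nₖ |b|²` modulo `a·b` and `b·c`, for `n = a × c` -/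
theorem poly_id {S : Type} [CommRing S] (a b c : Fin 3 → S) (i k : Fin 3) :
    ∑ p, ∑ q, (a p * a p * (b i * b k) * (c q * c q) - a p * a q * (b i * b k) * (c p * c q))
      = (a ⨯₃ c) i * ((a ⨯₃ c) k * ∑ j, b j * b j)
        + ((a ⨯₃ c) i * (b ⨯₃ a) k + ((a ⨯₃ c) ⨯₃ a) i * b k) * ∑ j, b j * c j
        - ((a ⨯₃ c) i * (b ⨯₃ c) k + ((a ⨯₃ c) ⨯₃ c) i * b k) * ∑ j, a j * b j := by
  fin_cases i <;> fin_cases k <;> simp [cross_apply, Fin.sum_univ_three] <;> ring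

section
variable {B E : Type} [CommMonoid B] [AddCommGroup E] [Module ℂ E]

/-- translation action -/
def tr (M E : Type) [CommMonoid M] [AddCommGroup E] [Module ℂ E] :
    M →* Module.End ℂ (M → E) where
  toFun u := LinearMap.funLeft ℂ E fun f => u * f
  map_one' := by ext T f; simp [LinearMap.funLeft_apply]
  map_mul' u v := by
    refine LinearMap.ext fun T => funext fun f => ?_
    simp [LinearMap.funLeft_apply, mul_left_comm, mul_assoc]

theorem alg (c : Fin 3 → B) (T : B × B × B → E)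
    (r1 : ∀ f h g, ∑ i, T (c i * f, c i * h, g) = 0)
    (r2 : ∀ f h g, ∑ i, T (f, c i * h, c i * g) = 0) {S₀ S₂ : Set B}
    (h₀ : ∀ f ∈ S₀, ∀ i, c i * f ∈ S₀) (h₂ : ∀ g ∈ S₂, ∀ i, c i * g ∈ S₂) {h : B}
    (hn : ∀ f ∈ S₀, ∀ g ∈ S₂, ∑ j, T (f, c j * c j * h, g) = 0) (i k : Fin 3) :
    ∀ f ∈ S₀, ∀ g ∈ S₂, ∑ p, ∑ q, (T (c p * c p * f, c i * c k * h, c q * c q * g)
      - T (c p * c q * f, c i * c k * h, c p * c q * g)) = 0 := by
  intro f hf g hg
  let act := MonoidAlgebra.lift ℂ (Module.End ℂ (B × B × B → E)) (B × B × B) (tr _ E)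
  have hact : ∀ u (T : B × B × B → E) v, act (MonoidAlgebra.of ℂ _ u) T v = T (u * v) :=
    fun u T v => by simp only [act, MonoidAlgebra.lift_of]; rfl
  let xa : Fin 3 → MonoidAlgebra ℂ (B × B × B) := fun i => MonoidAlgebra.of ℂ _ (c i, 1, 1)
  let xb : Fin 3 → MonoidAlgebra ℂ (B × B × B) := fun i => MonoidAlgebra.of ℂ _ (1, c i, 1)
  let xc : Fin 3 → MonoidAlgebra ℂ (B × B × B) := fun i => MonoidAlgebra.of ℂ _ (1, 1, c i)
  have e1 : act (∑ j, xa j * xb j) T = 0 := by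
    funext ⟨f, h, g⟩
    simpa only [xa, xb, ← map_mul, map_sum, LinearMap.sum_apply, Finset.sum_apply, hact,
      Prod.mk_mul_mk, mul_one, one_mul, Pi.zero_apply] using r1 f h g
  have e2 : act (∑ j, xb j * xc j) T = 0 := by
    funext ⟨f, h, g⟩
    simpa only [xb, xc, ← map_mul, map_sum, LinearMap.sum_apply, Finset.sum_apply, hact,
      Prod.mk_mul_mk, mul_one, one_mul, Pi.zero_apply] using r2 f h g
  let Z : (B × B × B → E) → Prop := fun T' => ∀ f ∈ S₀, ∀ g ∈ S₂, T' (f, h, g) = 0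
  have z0 : Z (act (∑ j, xb j * xb j) T) := fun f hf g hg => by
    simpa only [xb, ← map_mul, map_sum, LinearMap.sum_apply, Finset.sum_apply, hact,
      Prod.mk_mul_mk, mul_one, one_mul, Pi.zero_apply] using hn f hf g hg
  have z1 : ∀ p q T', Z T' → Z (act (xa p * xc q) T') := fun p q T' hT f hf g hg => by
    simpa only [xa, xc, ← map_mul, hact, Prod.mk_mul_mk, mul_one, one_mul]
      using hT _ (h₀ f hf p) _ (h₂ g hg q)
  have z2 : ∀ i T', Z T' → Z (act ((xa ⨯₃ xc) i) T') := fun i T' hT f hf g hg => by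
    fin_cases i <;>
      simp only [cross_apply, Fin.reduceFinMk, Fin.zero_eta, Fin.mk_one, Matrix.cons_val, map_sub,
        LinearMap.sub_apply, Pi.sub_apply, z1 _ _ _ hT f hf g hg, sub_self]
  have key := congrArg (fun r => act r T (f, h, g)) (poly_id xa xb xc i k)
  simp only [map_sub act, map_add act, map_mul act ((xa ⨯₃ xc) i), map_mul act ((xa ⨯₃ xc) k),
    map_mul act _ (∑ j, xb j * xc j), map_mul act _ (∑ j, xa j * xb j), LinearMap.sub_apply,
    LinearMap.add_apply, Module.End.mul_apply, e1, e2, map_zero, Pi.sub_apply,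
    Pi.zero_apply, z2 _ _ (z2 _ _ z0) f hf g hg, add_zero, sub_zero] at key
  simpa only [xa, xb, xc, map_sum, map_sub, ← map_mul, LinearMap.sum_apply, LinearMap.sub_apply,
    Finset.sum_apply, Pi.sub_apply, hact, Prod.mk_mul_mk, mul_one, one_mul] using key

end


/-- monotone classes on the projective plane -/
theorem of_proj {p : (V → ℂ) → Prop} (hp : MClass p) (e1 : p fun _ => 1)
    (e : ∀ f, BM f → p f → ∀ i k : Fin 3, p fun a => f a * ((a i * a k / (a ⬝ᵥ a) : ℝ) : ℂ)) :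
    ∀ f, BM f → Hom0 f → p f := fun f hf h0 => by
  let φ : V → Metric.closedBall (0 : Fin 3 → Fin 3 → ℝ) 1 := fun a =>
    ⟨Pj.pm a, mem_closedBall_zero_iff.2 (Pj.norm_pm_le a)⟩
  have hφ : Measurable φ := Pj.measurable_pm.subtype_mk
  let c : Fin 3 × Fin 3 → C(Metric.closedBall (0 : Fin 3 → Fin 3 → ℝ) 1, ℂ) := fun q =>
    ⟨fun M => (M.1 q.1 q.2 : ℝ), Complex.continuous_ofReal.comp
      ((continuous_apply_apply q.1 q.2).comp continuous_subtype_val)⟩
  have := (hp.comp hφ).of_gen (S := Set.range c)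
    (by rintro _ ⟨q, rfl⟩; ext M; exact Complex.conj_ofReal _)
    (fun x y hxy => by
      by_contra! H
      exact hxy (Subtype.ext (funext fun i => funext fun k =>
        Complex.ofReal_injective (H _ ⟨(i, k), rfl⟩)))) e1
    (by
      rintro _ ⟨q, rfl⟩ F hF
      simp only [mul_comm (c q)]
      exact e _ ((BM.of_cm F).comp hφ) hF q.1 q.2)
    (hf.comp (Pj.measurable_rw.comp measurable_subtype_coe))
  simpa only [φ, Function.comp, Pj.hom0_rw h0] using this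

theorem bm3 {f h g : V → ℂ} (hf : BM f) (hh : BM h) (hg : BM g) : ∀ k, BM (![f, h, g] k) :=
  fun k => by fin_cases k <;> assumption

theorem up0 {α : Type} (a b c d : α) : Function.update ![a, b, c] 0 d = ![d, b, c] := by
  funext i; fin_cases i <;> rfl

theorem up1 {α : Type} (a b c d : α) : Function.update ![a, b, c] 1 d = ![a, d, c] := by
  funext i; fin_cases i <;> rfl

theorem up2 {α : Type} (a b c d : α) : Function.update ![a, b, c] 2 d = ![a, b, d] := by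
  funext i; fin_cases i <;> rfl

variable {W : (Fin 3 → V → ℂ) → K →L[ℂ] K}

theorem isPoly2 (hW : IsPoly W) {h : V → ℂ} (hh : BM h) :
    IsPoly fun f : Fin 2 → V → ℂ => W ![f 0, h, f 1] where
  add f i g g' hf hg hg' := by
    fin_cases i
    · simpa [up0] using hW.add ![f 0, h, f 1] 0 g g' (bm3 (hf 0) hh (hf 1)) hg hg'
    · simpa [up2] using hW.add ![f 0, h, f 1] 2 g g' (bm3 (hf 0) hh (hf 1)) hg hg'
  smul f i c g hf hg := by
    fin_cases i
    · simpa [up0] using hW.smul ![f 0, h, f 1] 0 c g (bm3 (hf 0) hh (hf 1)) hg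
    · simpa [up2] using hW.smul ![f 0, h, f 1] 2 c g (bm3 (hf 0) hh (hf 1)) hg
  bdd := by
    obtain ⟨C, hC0, hC⟩ := hW.norm_le
    obtain ⟨D, hD0, hD⟩ := hh.exists_nonneg
    refine ⟨C * ∏ k, ![1, D, 1] k, fun f hf hb => hC _ ![1, D, 1] (fun k => ?_) (fun k => ?_)
      fun k => ?_⟩ <;> fin_cases k
    exacts [hf 0, hh.1, hf 1, zero_le_one, hD0, zero_le_one, hb 0, hD, hb 1]
  lim f g C hm hb hl η := by
    obtain ⟨D, hD0, hD⟩ := hh.exists_nonneg
    refine hW.lim (fun n => ![f n 0, h, f n 1]) ![g 0, h, g 1] (max C D) (fun n k => ?_)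
      (fun n k y => ?_) (fun k y => ?_) η <;> fin_cases k
    exacts [hm n 0, hh.1, hm n 1, le_max_of_le_left (hb n 0 y), le_max_of_le_right (hD y),
      le_max_of_le_left (hb n 1 y), hl 0 y, tendsto_const_nhds, hl 1 y]

theorem isPoly1_mid (hW : IsPoly W) {f g : V → ℂ} (hf : BM f) (hg : BM g) :
    IsPoly1 fun h => W ![f, h, g] := by
  simpa only [up1] using hW.isPoly1 (bm3 hf hf hg) 1

theorem exists_box {z : Fin 2 → V} (hz : z 0 ⨯₃ z 1 ≠ 0) : ∃ O : Fin 2 → Set V,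
    (∀ k, IsOpen (O k)) ∧ (∀ k, z k ∈ O k) ∧ ∀ a ∈ O 0, ∀ b ∈ O 1, a ⨯₃ b ≠ 0 := by
  have hc : Continuous fun p : V × V => p.1 ⨯₃ p.2 := by
    refine continuous_pi fun i => ?_
    fin_cases i <;> simp [cross_apply] <;> fun_prop
  obtain ⟨u, v, hu, hv, h0, h1, h⟩ :=
    isOpen_prod_iff.1 (isOpen_ne_fun hc (continuous_const (y := (0 : V)))) (z 0) (z 1) hz
  refine ⟨![u, v], fun k => ?_, fun k => ?_, fun a ha b hb => h (Set.mk_mem_prod ha hb)⟩ <;>
    fin_cases k <;> assumption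

/-- vanishing on all boxes of non-parallel vectors -/
def Nl (W : (Fin 2 → V → ℂ) → K →L[ℂ] K) : Prop :=
  ∀ O : Fin 2 → Set V, (∀ k, IsOpen (O k)) → (∀ a ∈ O 0, ∀ b ∈ O 1, a ⨯₃ b ≠ 0) → NullOn W O

theorem Nl.supp {W : (Fin 2 → V → ℂ) → K →L[ℂ] K} (h : Nl W) : ∀ z ∈ supp W, z 0 ⨯₃ z 1 = 0 :=
  fun z hz => by
    by_contra H
    obtain ⟨O, h1, h2, h3⟩ := exists_box H
    exact hz O (fun k => (h1 k).mem_nhds (h2 k)) (h O h1 h3)

theorem nl_of_supp {W : (Fin 2 → V → ℂ) → K →L[ℂ] K} (hW : IsPoly W)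
    (h : ∀ z ∈ supp W, z 0 ⨯₃ z 1 = 0) : Nl W := fun O h1 h2 =>
  hW.nullOn_of_disjoint (fun k => isSigmaCompact_of_isOpen (h1 k))
    fun z hz hs => h2 _ (hz 0) _ (hz 1) (h z hs)

theorem mclass_nl (hW : IsPoly W) :
    MClass fun h => Nl fun f : Fin 2 → V → ℂ => W ![f 0, h, f 1] where
  add h h' hh hh' e e' O h1 h2 f hf h0 := by
    have := (isPoly1_mid hW (hf 0) (hf 1)).add h h' hh hh'
    simp only [e O h1 h2 f hf h0, e' O h1 h2 f hf h0, add_zero] at this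
    exact this
  smul c h hh e O h1 h2 f hf h0 := by
    have := (isPoly1_mid hW (hf 0) (hf 1)).smul c h hh
    simp only [e O h1 h2 f hf h0, smul_zero] at this
    exact this
  lim h g C hm hb hl e O h1 h2 f hf h0 := by
    refine ContinuousLinearMap.ext fun η => ?_
    have := (isPoly1_mid hW (hf 0) (hf 1)).lim h g C hm hb hl η
    simp only [fun n => e n O h1 h2 f hf h0] at this
    exact tendsto_nhds_unique this tendsto_const_nhds

/-- the monoid of bounded Borel functions -/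
def Bm : Submonoid (V → ℂ) where
  carrier := {u | BM u}
  mul_mem' ha hb := BM.mul ha hb
  one_mem' := BM.one

/-- the weight `‖b‖² / (b·b)` -/
noncomputable def wt (b : V) : ℂ := ((‖b‖ ^ 2 / (b ⬝ᵥ b) : ℝ) : ℂ)

theorem bm_wt : BM wt := by
  refine BM.ofReal (C := 1) (by unfold dotProduct; fun_prop) fun b => ?_
  have h0 : 0 ≤ b ⬝ᵥ b := (sq_nonneg _).trans (norm_sq_le_dot b)
  rw [abs_of_nonneg (by positivity)]
  exact div_le_one_of_le₀ (norm_sq_le_dot b) h0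

theorem co_co_wt (i k : Fin 3) (b : V) :
    co i b * co k b * wt b = ((b i * b k / (b ⬝ᵥ b) : ℝ) : ℂ) := by
  by_cases hb : b = 0
  · simp [hb, co, nrm_zero]
  have := norm_ne_zero_iff.2 hb
  rw [co, co, wt, ← Complex.ofReal_mul, ← Complex.ofReal_mul]
  congr 1
  simp only [nrm, Pi.smul_apply, smul_eq_mul]
  field_simp

theorem sum_co_wt (h : V → ℂ) (b : V) :
    ∑ j, co j b * co j b * (wt b * h b) = h b + -h 0 * ic {0} b := by
  simp only [← mul_assoc, co_co_wt, ← Finset.sum_mul, ← Complex.ofReal_sum, ← Finset.sum_div]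
  by_cases hb : b = 0
  · simp [hb, ic_of_mem]
  · rw [ic_of_notMem (by simpa using hb), show ∑ j, b j * b j = b ⬝ᵥ b from rfl,
      div_self (Pj.dot_ne hb)]
    simp

theorem lagrange_ne {a b : V} (h : a ⨯₃ b ≠ 0) :
    ∑ p, ∑ q, (co p a * co p a * (co q b * co q b) - co p a * co q a * (co p b * co q b)) ≠ 0 := by
  have ha : a ≠ 0 := fun e => h (by simp [e])
  have hb : b ≠ 0 := fun e => h (by simp [e])
  have h1 : nrm a ⨯₃ nrm b ≠ 0 := by
    simp only [nrm, map_smul, LinearMap.smul_apply]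
    exact smul_ne_zero (inv_ne_zero (norm_ne_zero_iff.2 hb))
      (smul_ne_zero (inv_ne_zero (norm_ne_zero_iff.2 ha)) h)
  have h2 := Complex.ofReal_ne_zero.2 (Pj.dot_ne h1)
  convert h2 using 1
  simp [co, cross_apply, dotProduct, Fin.sum_univ_three]
  ring

theorem step (hW : IsPoly W) (hz : ∀ f g, BM f → BM g → W ![f, ic {0}, g] = 0)
    (r1 : ∀ f h g, BM f → BM h → BM g →
      ∑ i, W ![fun a => f a * co i a, fun b => h b * co i b, g] = 0)
    (r2 : ∀ f h g, BM f → BM h → BM g →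
      ∑ i, W ![f, fun b => h b * co i b, fun a => g a * co i a] = 0)
    {h : V → ℂ} (hh : BM h) (hn : Nl fun f : Fin 2 → V → ℂ => W ![f 0, h, f 1]) (i k : Fin 3) :
    Nl fun f : Fin 2 → V → ℂ =>
      W ![f 0, fun a => h a * ((a i * a k / (a ⬝ᵥ a) : ℝ) : ℂ), f 1] := by
  have e0 : (fun a => h a * ((a i * a k / (a ⬝ᵥ a) : ℝ) : ℂ))
      = fun a => co i a * co k a * (wt a * h a) := funext fun a => by
    rw [← mul_assoc, co_co_wt, mul_comm]
  rw [e0]
  have hp := isPoly2 hW (((bm_co i).mul (bm_co k)).mul (bm_wt.mul hh))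
  refine nl_of_supp hp fun z hz' => ?_
  by_contra H
  have ha : z 0 ≠ 0 := fun e => H (by simp [e])
  have hb : z 1 ≠ 0 := fun e => H (by simp [e])
  obtain ⟨O, h1, h2, h3⟩ := exists_box H
  refine hp.not_mem_supp_of_mul (Finset.univ : Finset ((Fin 3 × Fin 3) ⊕ (Fin 3 × Fin 3)))
    (a := Sum.elim (fun _ => 1) fun _ => -1)
    (u := Sum.elim (fun r => ![fun y => co r.1 y * co r.1 y, fun y => co r.2 y * co r.2 y])
      fun r => ![fun y => co r.1 y * co r.2 y, fun y => co r.1 y * co r.2 y]) ?_ ?_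
    (fun k => (h1 k).mem_nhds (h2 k)) (fun f hf h0 => ?_) hz'
  · rintro (r | r) - k <;> fin_cases k
    exacts [⟨(bm_co _).mul (bm_co _), (continuousAt_co _ ha).mul (continuousAt_co _ ha)⟩,
      ⟨(bm_co _).mul (bm_co _), (continuousAt_co _ hb).mul (continuousAt_co _ hb)⟩,
      ⟨(bm_co _).mul (bm_co _), (continuousAt_co _ ha).mul (continuousAt_co _ ha)⟩,
      ⟨(bm_co _).mul (bm_co _), (continuousAt_co _ hb).mul (continuousAt_co _ hb)⟩]
  · simpa [Fintype.sum_sum_type, Fintype.sum_prod_type, sub_eq_add_neg, Finset.sum_add_distrib]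
      using lagrange_ne H
  let c : Fin 3 → Bm := fun i => ⟨co i, bm_co i⟩
  have hc : ∀ i (f : Bm), ((c i * f : Bm) : V → ℂ) = fun a => f.1 a * co i a :=
    fun i f => funext fun a => mul_comm _ _
  have key := alg c (fun t => W ![t.1, t.2.1, t.2.2])
    (fun f h g => by simpa only [hc] using r1 _ _ _ f.2 h.2 g.2)
    (fun f h g => by simpa only [hc] using r2 _ _ _ f.2 h.2 g.2)
    (S₀ := {f | ∀ y, y ∉ O 0 → f.1 y = 0}) (S₂ := {f | ∀ y, y ∉ O 1 → f.1 y = 0})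
    (fun f hf i y hy => by simp only [hc, hf y hy, zero_mul])
    (fun f hf i y hy => by simp only [hc, hf y hy, zero_mul])
    (h := ⟨fun a => wt a * h a, bm_wt.mul hh⟩) (fun f hf g hg => ?_) i k ⟨f 0, hf 0⟩ (h0 0)
    ⟨f 1, hf 1⟩ (h0 1)
  · simpa [Fintype.sum_sum_type, Fintype.sum_prod_type, sub_eq_add_neg, Finset.sum_add_distrib,
      c, Pi.mul_def] using key
  · have hP := isPoly1_mid hW f.2 g.2
    have b : ∀ j, BM fun a => co j a * co j a * (wt a * h a) := fun j =>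
      ((bm_co j).mul (bm_co j)).mul (bm_wt.mul hh)
    have i0 : BM (ic ({0} : Set V)) := BM.ic (measurableSet_singleton _)
    have e1 := hP.add _ _ ((b 0).add (b 1)) (b 2)
    have e2 := hP.add _ _ (b 0) (b 1)
    have e3 := hP.add _ _ hh (i0.const_mul (-h 0))
    have e4 := hP.smul (-h 0) _ i0
    have e5 : W ![f, h, g] = 0 := hn O h1 h3 ![f, g] (bm_vec2 f.2 g.2) fun k => by
      fin_cases k <;> assumption
    simp only [← sum_co_wt, Fin.sum_univ_three] at e3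
    simp only [e2, e3, e4, e5, hz _ _ f.2 g.2, smul_zero, add_zero] at e1
    rw [Fin.sum_univ_three]
    exact e1.symm

end Mid

open Mid in
/-- **MID** -/
theorem mid {W : (Fin 3 → V → ℂ) → K →L[ℂ] K} (hW : IsPoly W)
    (hc : ∀ f h g, BM f → BM h → BM g → W ![f, h, g] = W ![f, fun b => h (sg (nrm b)), g])
    (hz : ∀ f g, BM f → BM g → W ![f, ic {0}, g] = 0)
    (r1 : ∀ f h g, BM f → BM h → BM g →
      ∑ i, W ![fun a => f a * co i a, fun b => h b * co i b, g] = 0)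
    (r2 : ∀ f h g, BM f → BM h → BM g →
      ∑ i, W ![f, fun b => h b * co i b, fun a => g a * co i a] = 0)
    (h1 : ∀ z ∈ supp fun f : Fin 2 → V → ℂ => W ![f 0, fun _ => 1, f 1], z 0 ⨯₃ z 1 = 0)
    {h : V → ℂ} (hh : BM h) :
    ∀ z ∈ supp fun f : Fin 2 → V → ℂ => W ![f 0, h, f 1], z 0 ⨯₃ z 1 = 0 := by
  have := of_proj (mclass_nl hW) (nl_of_supp (isPoly2 hW BM.one) h1)
    (fun f hf hn i k => step hW hz r1 r2 hf hn i k) _
    (hh.comp (measurable_sg.comp measurable_nrm)) (hom0_sg_nrm h)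
  refine Nl.supp fun O o1 o2 f hf h0 => ?_
  exact (hc _ _ _ (hf 0) hh (hf 1)).trans (this O o1 o2 f hf h0)

/-- diagonal lemma for projective POVMs -/
theorem diag_proj {P P' : POVM V K} (hP : P.Proj) (hP' : P'.Proj) {T : K →L[ℂ] K}
    (hs : ∀ z ∈ supp fun f : Fin 2 → V → ℂ => P.E (f 0) * T * P'.E (f 1), z 0 ⨯₃ z 1 = 0)
    {u f g : V → ℂ} (hu : BM u) (hu0 : Hom0 u) (hf : BM f) (hg : BM g) :
    P.E (fun a => u a * f a) * T * P'.E g = P.E f * T * P'.E fun a => u a * g a := by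
  have hcl : IsClosed {a : V | ‖a‖ = 1} := isClosed_eq continuous_norm continuous_const
  have h0 : ∀ {Q : POVM V K}, Q.Proj → ∀ f, BM f → (∀ y ∈ {a : V | ‖a‖ = 1}, f y = 0) →
      Q.E f = 0 := fun {Q} hQ f hf e =>
    (Q.E_congr_of_conc hcl.measurableSet hQ.sphere hf BM.zero e).trans Q.E_zero
  refine (isPoly_two P P' T).diag (fun z hz => ?_) hu hu0.ev hf hg
  have hn : ∀ k, ‖z k‖ = 1 := mem_of_mem_supp (Z := fun _ => {a : V | ‖a‖ = 1}) (fun _ => hcl)
    (fun f hf i e => by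
      fin_cases i
      · simp only [h0 hP _ (hf 0) e, zero_mul]
      · simp only [h0 hP' _ (hf 1) e, mul_zero]) hz
  obtain ⟨t, ht⟩ := exists_smul_of_cross_eq_zero
    (norm_ne_zero_iff.1 (by rw [hn 0]; exact one_ne_zero)) (hs z hz)
  have h1 := hn 1
  rw [ht, norm_smul, hn 0, mul_one, Real.norm_eq_abs] at h1
  rcases eq_or_eq_neg_of_abs_eq h1 with rfl | rfl
  · exact Or.inl (by rw [ht, one_smul])
  · exact Or.inr (by rw [ht, neg_one_smul])

theorem Mid.mid_two {P P' : POVM V K} (hP : P.Proj) (hP' : P'.Proj) {D : (V → ℂ) → K →L[ℂ] K}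
    (hW : IsPoly fun f : Fin 3 → V → ℂ => P.E (f 0) * D (f 1) * P'.E (f 2))
    (hc : ∀ h, BM h → D h = D fun b => h (sg (nrm b))) (hz : D (ic {0}) = 0)
    (r1 : ∀ f h, BM f → BM h → ∑ i, P.E (fun a => f a * co i a) * D (fun b => h b * co i b) = 0)
    (r2 : ∀ h g, BM h → BM g → ∑ i, D (fun b => h b * co i b) * P'.E (fun a => g a * co i a) = 0)
    (h1 : Mid.Nl fun f : Fin 2 → V → ℂ => P.E (f 0) * D (fun _ => 1) * P'.E (f 1))
    {h u f g : V → ℂ} (hh : BM h) (hu : BM u) (hu0 : Hom0 u) (hf : BM f) (hg : BM g) :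
    P.E (fun a => u a * f a) * D h * P'.E g = P.E f * D h * P'.E fun a => u a * g a := by
  refine diag_proj hP hP' (mid hW (fun f h g _ hh _ => ?_) (fun f g _ _ => ?_)
    (fun f h g hf hh _ => ?_) (fun f h g _ hh hg => ?_) h1.supp hh) hu hu0 hf hg
  · exact congrArg (fun T => P.E f * T * P'.E g) (hc h hh)
  · change P.E f * D (ic {0}) * P'.E g = 0
    rw [hz, mul_zero, zero_mul]
  · change ∑ i, P.E (fun a => f a * co i a) * D (fun b => h b * co i b) * P'.E g = 0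
    rw [← Finset.sum_mul, r1 f h hf hh, zero_mul]
  · change ∑ i, P.E f * D (fun b => h b * co i b) * P'.E (fun a => g a * co i a) = 0
    simp only [mul_assoc]
    rw [← Finset.mul_sum, r2 h g hh hg, mul_zero]

/-- an incident POVM commutes with a PVM -/
theorem Inc.commute {P G : POVM V K} (h : Inc P G) (hP : P.Proj) (hG : G.Proj) (hp : P.IsPVM)
    {f g : V → ℂ} (hf : BM f) (hg : BM g) : Commute (P.E f) (G.E g) := by
  have := Mid.mid_two hP hP (D := G.E) (by simpa only [mul_one] using isPoly_three P G P 1 1)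
    hG.conc hG.zero (fun f g hf hg => h.syn hP hG hf hg) (fun f g hf hg => h.symm.syn hG hP hf hg)
    (fun O _ o2 f hf h0 => ?_) hg (hf.comp (measurable_sg.comp measurable_nrm)) (hom0_sg_nrm f)
    BM.one BM.one
  · simp only [mul_one, P.E_one, one_mul, Function.comp] at this
    rw [hP.conc f hf]
    exact this
  · beta_reduce
    rw [G.E_one, mul_one, ← hp _ _ (hf 0) (hf 1), ← P.E_zero]
    congr 1
    funext y
    by_cases h1 : y ∈ O 0
    · rw [h0 1 y fun h2 => o2 y h1 y h2 (cross_self y), mul_zero]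
    · rw [h0 0 y h1, zero_mul]

/-- the difference of two incident POVMs intertwines -/
theorem Inc.inter {P P' G₁ G₂ : POVM V K} (hP : P.Proj) (hP' : P'.Proj) (h₁ : G₁.Proj)
    (h₂ : G₂.Proj) (i₁ : Inc P G₁) (i₂ : Inc P G₂) (i₁' : Inc P' G₁) (i₂' : Inc P' G₂)
    {h u f g : V → ℂ} (hh : BM h) (hu : BM u) (hu0 : Hom0 u) (hf : BM f) (hg : BM g) :
    P.E (fun a => u a * f a) * (G₁.E h - G₂.E h) * P'.E g
      = P.E f * (G₁.E h - G₂.E h) * P'.E fun a => u a * g a := by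
  refine Mid.mid_two hP hP' (D := fun h => G₁.E h - G₂.E h) ?_ (fun h hh => ?_) ?_
    (fun f g hf hg => ?_) (fun f g hf hg => ?_) (fun O _ _ f _ _ => ?_) hh hu hu0 hf hg
  · simpa only [mul_one, mul_sub, sub_mul] using
      (isPoly_three P G₁ P' 1 1).sub (isPoly_three P G₂ P' 1 1)
  · rw [h₁.conc h hh, h₂.conc h hh]
  · rw [h₁.zero, h₂.zero, sub_zero]
  · simp only [mul_sub, Finset.sum_sub_distrib, i₁.syn hP h₁ hf hg, i₂.syn hP h₂ hf hg, sub_zero]
  · simp only [sub_mul, Finset.sum_sub_distrib, i₁'.symm.syn h₁ hP' hf hg,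
      i₂'.symm.syn h₂ hP' hf hg, sub_zero]
  · simp only [G₁.E_one, G₂.E_one, sub_self, mul_zero, zero_mul]

/-- **TWO**: a POVM incident to two boundary PVMs is unique -/
theorem Ind.Pre.two {I : Ind K} {Φ : V → POVM V K} (hΦ : I.Pre Φ) {x x' : V} (hx : x ⨯₃ x' ≠ 0)
    (hp : (Φ x).IsPVM) {G₁ G₂ : POVM V K} (h₁ : G₁.Proj) (h₂ : G₂.Proj) (i₁ : Inc (Φ x) G₁)
    (i₂ : Inc (Φ x) G₂) (i₁' : Inc (Φ x') G₁) (i₂' : Inc (Φ x') G₂) {h : V → ℂ} (hh : BM h) :
    G₁.E h = G₂.E h := by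
  have hP := (hΦ.cov x fun e => hx (by simp [e])).proj
  have hP' := (hΦ.cov x' fun e => hx (by simp [e])).proj
  have key : ∀ u, BM u → Hom0 u → (G₁.E h - G₂.E h) * ((Φ x).E u - (Φ x').E u) = 0 :=
    fun u hu hu0 => by
      have e := Inc.inter hP hP' h₁ h₂ i₁ i₂ i₁' i₂' hh hu hu0 BM.one BM.one
      simp only [mul_one, POVM.E_one, one_mul] at e
      rw [mul_sub, ← e, ((i₁.commute hP h₁ hp hu hh).sub_right (i₂.commute hP h₂ hp hu hh)).eq,
        sub_self]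
  have := hΦ.eq_zero_of_sub hx (T := star (G₁.E h - G₂.E h)) fun u hu hu0 => by
    have e := congrArg star (key _ hu.conj fun z hz a => by simp only [hu0 z hz a])
    simpa only [star_mul, star_sub (POVM.E _ _) (POVM.E (Φ x') _), POVM.E_star _ hu.conj,
      Complex.conj_conj, star_zero] using e
  exact sub_eq_zero.1 (star_eq_zero.1 this)

/-- **NI**: opposite pairs are not incident -/
theorem Ind.IsPro.not_inc {I I' : Ind K} {Φ Ψ : V → POVM V K} (hd : I.IsDual I') (hΦ : I.IsPro Φ)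
    (hΨ : I'.IsPro Ψ) (hi : Ind.IsInc Φ Ψ) : ¬ Inc (Φ (ev 0)) (Ψ (ev 0)) := fun H => by
  have all : ∀ x y, x ≠ 0 → y ≠ 0 → Inc (Φ x) (Ψ y) := fun x y hx hy => by
    by_cases h0 : x ⬝ᵥ y = 0
    · exact hi.inc x y hx hy h0
    obtain ⟨g, g1, g2⟩ := exists_ac_opp (x := x) (y := (x ⬝ᵥ y)⁻¹ • y)
      (by rw [dotProduct_smul, smul_eq_mul, inv_mul_cancel₀ h0])
    refine H.conj (I.U.mem_unitary g) (fun f hf => ?_) fun f hf => ?_
    · rw [URep.star_apply, hΦ.covU _ (ev_ne_zero 0) f hf, g1]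
    · have := hΨ.covU _ (ev_ne_zero 0) f hf (dl g)
      rw [hd.U, hd.U, ← map_inv, dl_dl, dl_dl, g2, hΨ.scal y hy _ (inv_ne_zero h0) f hf] at this
      simpa only [URep.star_apply, one_mul, mul_one] using this
  have h01 : ev 0 ⨯₃ ev 1 ≠ 0 := fun e => by simpa [ev, cross_apply] using congrFun e 2
  exact hΨ.pre.dist h01 fun f hf _ => hΦ.pre.two h01 (hΦ.pvm _) (hΨ.proj _) (hΨ.proj _)
    (all _ _ (ev_ne_zero _) (ev_ne_zero _)) (all _ _ (ev_ne_zero _) (ev_ne_zero _))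
    (all _ _ (ev_ne_zero _) (ev_ne_zero _)) (all _ _ (ev_ne_zero _) (ev_ne_zero _)) hf

end Crest.Agent.N111
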